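import Vale.Agent.P113.PDE.Unique

/-!
# P113: smooth fields as classical solutions; uniqueness of trajectories
-/

namespace Vale.Agent.P113.PDE

open Set MeasureTheory

/-- A periodic divergence-free field `u` which vanishes at time `0` is, together with the zero
pressure, a classical solution for the force `f = ∂ₜu + (u·∇)u - ν Δu`. -/
theorem isClassicalSolution_of_derivs {ν : ℝ} {f u ut : ℝ → E3 → E3}
    {Du : Fin 3 → ℝ → E3 → E3} {DDu : Fin 3 → Fin 3 → ℝ → E3 → E3}
    (hper : ∀ t, 0 ≤ t → IsPeriodic (u t))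
    (hut : ∀ t, 0 ≤ t → ∀ x i, HasDerivAt (fun s => u s x i) (ut t x i) t)
    (hDu : ∀ t, 0 ≤ t → ∀ x i j, HasPartial (fun y => u t y i) j (Du j t x i) x)
    (hDDu : ∀ t, 0 ≤ t → ∀ x i j k, HasPartial (fun y => Du k t y i) j (DDu j k t x i) x)
    (cu : Continuous (fun z : ℝ × E3 => u z.1 z.2))
    (cut : Continuous (fun z : ℝ × E3 => ut z.1 z.2))
    (cDu : ∀ j, Continuous (fun z : ℝ × E3 => Du j z.1 z.2))
    (cDDu : ∀ j k, Continuous (fun z : ℝ × E3 => DDu j k z.1 z.2))
    (hf : ∀ t, 0 ≤ t → ∀ x i, f t x i =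
      ut t x i + ∑ j, u t x j * Du j t x i - ν * ∑ j, DDu j j t x i)
    (hdiv : ∀ t, 0 ≤ t → ∀ x, ∑ j, Du j t x j = 0) (h0 : ∀ x, u 0 x = 0) (T : ℝ) :
    IsClassicalSolution ν f T u (fun _ _ => 0) where
  periodic_u := fun t ht => hper t ht.1
  periodic_p := fun t ht x m => rfl
  equations := by
    refine ⟨ut, Du, DDu, fun _ _ _ => 0, fun t ht x i => (hut t ht.1 x i).hasDerivWithinAt,
      fun t ht => hDu t ht.1, fun t ht => hDDu t ht.1, fun t ht x j => ?_, cu.continuousOn,
      cut.continuousOn, fun j => (cDu j).continuousOn, fun j k => (cDDu j k).continuousOn,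
      continuousOn_const, fun j => continuousOn_const, fun t ht x i => ?_,
      fun t ht => hdiv t ht.1⟩
    · exact hasDerivAt_const _ _
    · rw [hf t ht.1 x i]; ring
  initial := h0
  mean_zero := fun t ht => by simp

/-- `X` is the trajectory of the point `a` in the time-dependent field `u`. -/
def IsTrajectory (u : ℝ → E3 → E3) (a : E3) (X : ℝ → E3) : Prop :=
  X 0 = a ∧ ∀ t, 0 ≤ t → HasDerivWithinAt X (u t (X t)) (Ici 0) t

theorem IsTrajectory.continuousOn {u : ℝ → E3 → E3} {a : E3} {X : ℝ → E3}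
    (h : IsTrajectory u a X) : ContinuousOn X (Ici 0) :=
  fun t ht => (h.2 t ht).continuousWithinAt

/-- **Uniqueness of trajectories** of a `C¹` field. -/
theorem IsTrajectory.unique {u : ℝ → E3 → E3} (hu : ContDiff ℝ 1 (fun z : ℝ × E3 => u z.1 z.2))
    {a : E3} {X Y : ℝ → E3} (hX : IsTrajectory u a X) (hY : IsTrajectory u a Y) :
    ∀ t, 0 ≤ t → X t = Y t := by
  intro t ht
  have cX : ContinuousOn X (Icc 0 t) := hX.continuousOn.mono Icc_subset_Ici_self
  have cY : ContinuousOn Y (Icc 0 t) := hY.continuousOn.mono Icc_subset_Ici_self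
  obtain ⟨R1, hR1⟩ := isCompact_Icc.exists_bound_of_continuousOn cX
  obtain ⟨R2, hR2⟩ := isCompact_Icc.exists_bound_of_continuousOn cY
  set R := max R1 R2 with hR
  set S : Set (ℝ × E3) := Icc 0 t ×ˢ Metric.closedBall 0 R with hS
  have hSc : IsCompact S := isCompact_Icc.prod (isCompact_closedBall _ _)
  have hSconv : Convex ℝ S := (convex_Icc 0 t).prod (convex_closedBall _ _)
  obtain ⟨K, hK⟩ : ∃ K : NNReal, LipschitzOnWith K (fun z : ℝ × E3 => u z.1 z.2) S := by
    obtain ⟨C, hC⟩ := hSc.exists_bound_of_continuousOn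
      (hu.continuous_fderiv (by norm_num)).continuousOn
    refine ⟨C.toNNReal, hSconv.lipschitzOnWith_of_nnnorm_fderiv_le
      (fun z _ => (hu.differentiable (by norm_num)).differentiableAt) fun z hz => ?_⟩
    rw [← NNReal.coe_le_coe, coe_nnnorm]
    exact (hC z hz).trans (Real.le_coe_toNNReal C)
  have hKs : ∀ s ∈ Ico 0 t, LipschitzOnWith K (u s) (Metric.closedBall 0 R) := by
    intro s hs x hx y hy
    have := hK (x := (s, x)) ⟨Ico_subset_Icc_self hs, hx⟩ (y := (s, y))
      ⟨Ico_subset_Icc_self hs, hy⟩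
    simpa [Prod.edist_eq] using this
  have hder : ∀ {Z : ℝ → E3}, IsTrajectory u a Z →
      ∀ s ∈ Ico 0 t, HasDerivWithinAt Z (u s (Z s)) (Ici s) s := by
    intro Z hZ s hs
    exact (hZ.2 s hs.1).mono (Ici_subset_Ici.2 hs.1)
  have := ODE_solution_unique_of_mem_Icc_right (v := u) (s := fun _ => Metric.closedBall 0 R)
    (K := K) (a := 0) (b := t) hKs cX (hder hX)
    (fun s hs => mem_closedBall_zero_iff.2
      ((hR1 s (Ico_subset_Icc_self hs)).trans (le_max_left _ _))) cY (hder hY)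
    (fun s hs => mem_closedBall_zero_iff.2
      ((hR2 s (Ico_subset_Icc_self hs)).trans (le_max_right _ _)))
    (hX.1.trans hY.1.symm)
  exact this ⟨ht, le_refl _⟩

end Vale.Agent.P113.PDE
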