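import Vale.Agent.P113.Defs
import Vale.Agent.P113.PDE.Exist

/-!
# P113: uniqueness and existence of classical solutions in the sense of `IsClassical`
-/

namespace Vale.Agent.P113

open Set MeasureTheory
open scoped ContDiff

theorem hasPartial_pd {g : (Fin 3 → ℝ) → ℝ} {x : Fin 3 → ℝ} (hg : DifferentiableAt ℝ g x)
    (j : Fin 3) : PDE.HasPartial g j (pd j g x) x := by
  have h1 : HasFDerivAt g (fderiv ℝ g x) (Function.update x j (x j)) := by
    rw [Function.update_eq_self]
    exact hg.hasFDerivAt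
  exact h1.comp_hasDerivAt (x j) (hasDerivAt_update x j (x j))

theorem contDiff_pd {n : WithTop ℕ∞} {g : (Fin 3 → ℝ) → ℝ} (hg : ContDiff ℝ (n + 1) g)
    (j : Fin 3) : ContDiff ℝ n (pd j g) :=
  (hg.fderiv_right le_rfl).clm_apply contDiff_const

theorem IsClassical.isClassicalSolution {ν T : ℝ} {f u : ℝ → (Fin 3 → ℝ) → Fin 3 → ℝ}
    {p : ℝ → (Fin 3 → ℝ) → ℝ} (h : IsClassical ν f T u p) :
    PDE.IsClassicalSolution ν f T u p where
  periodic_u := h.periodic_u
  periodic_p := h.periodic_p
  equations := by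
    have hu : ∀ t ∈ Icc 0 T, ∀ i, ContDiff ℝ 2 fun y => u t y i := fun t ht i =>
      contDiff_pi.1 (h.contDiff_u t ht) i
    refine ⟨fun t x i => derivWithin (fun s => u s x i) (Icc 0 T) t,
      fun j t x i => pd j (fun y => u t y i) x, fun j k t x i => pd j (pd k fun y => u t y i) x,
      fun j t x => pd j (p t) x, ?_, ?_, ?_, ?_, ?_, ?_, ?_, ?_, h.continuous_p,
      h.continuous_px, h.momentum, h.div_free⟩
    · exact fun t ht x i => (h.differentiable_t t ht x i).hasDerivWithinAt
    · exact fun t ht x i j => hasPartial_pd ((hu t ht i).differentiable (by norm_num) x) j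
    · intro t ht x i j k
      refine hasPartial_pd ((contDiff_pd (n := 1) ?_ k).differentiable (by norm_num) x) j
      exact hu t ht i
    · exact fun t ht x j => hasPartial_pd ((h.contDiff_p t ht).differentiable (by norm_num) x) j
    · exact continuousOn_pi.2 h.continuous_u
    · exact continuousOn_pi.2 h.continuous_ut
    · exact fun j => continuousOn_pi.2 fun i => h.continuous_ux i j
    · exact fun j k => continuousOn_pi.2 fun i => h.continuous_uxx i k j
  initial := h.initial
  mean_zero := h.mean_p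

/-- **Uniqueness of classical solutions** on `[0, T]`. -/
theorem IsClassical.unique {ν T : ℝ} (hν : 0 ≤ ν) (hT : 0 < T)
    {f u v : ℝ → (Fin 3 → ℝ) → Fin 3 → ℝ} {p q : ℝ → (Fin 3 → ℝ) → ℝ}
    (hu : IsClassical ν f T u p) (hv : IsClassical ν f T v q) :
    ∀ t ∈ Icc 0 T, v t = u t ∧ q t = p t := by
  intro t ht
  have := PDE.classical_unique hν hT hu.isClassicalSolution hv.isClassicalSolution t ht
  exact ⟨funext fun x => (this x).1.symm, funext fun x => (this x).2.symm⟩

theorem pd_slice {G : ℝ × (Fin 3 → ℝ) → ℝ} {t : ℝ} {x : Fin 3 → ℝ}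
    (hG : DifferentiableAt ℝ G (t, x)) (j : Fin 3) :
    pd j (fun y => G (t, y)) x = fderiv ℝ G (t, x) (0, Pi.single j 1) := by
  have h1 : HasFDerivAt (fun y : Fin 3 → ℝ => (t, y))
      (ContinuousLinearMap.inr ℝ ℝ (Fin 3 → ℝ)) x := hasFDerivAt_prodMk_right t x
  have h2 := (hG.hasFDerivAt.comp x h1).fderiv
  have h3 : (fun y => G (t, y)) = G ∘ fun y => (t, y) := rfl
  rw [pd, h3, h2]
  simp

theorem contDiff_pd_slice {G : ℝ × (Fin 3 → ℝ) → ℝ} (hG : ContDiff ℝ ∞ G) (j : Fin 3) :
    ContDiff ℝ ∞ fun z : ℝ × (Fin 3 → ℝ) => pd j (fun y => G (z.1, y)) z.2 := by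
  have h1 : (fun z : ℝ × (Fin 3 → ℝ) => pd j (fun y => G (z.1, y)) z.2) =
      fun z => fderiv ℝ G z (0, Pi.single j 1) := by
    funext z
    exact pd_slice (t := z.1) (x := z.2) (hG.differentiable (by norm_num) _) j
  rw [h1]
  exact (hG.fderiv_right (m := ∞) (by norm_cast)).clm_apply contDiff_const

theorem contDiff_deriv_slice {G : ℝ × (Fin 3 → ℝ) → ℝ} (hG : ContDiff ℝ ∞ G) :
    ContDiff ℝ ∞ fun z : ℝ × (Fin 3 → ℝ) => deriv (fun s => G (s, z.2)) z.1 := by
  have h1 : (fun z : ℝ × (Fin 3 → ℝ) => deriv (fun s => G (s, z.2)) z.1) =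
      fun z => fderiv ℝ G z (1, 0) := by
    funext z
    have h1 : HasFDerivAt (fun s : ℝ => (s, z.2))
      (ContinuousLinearMap.inl ℝ ℝ (Fin 3 → ℝ)) z.1 := hasFDerivAt_prodMk_left z.1 z.2
    have h2 : HasFDerivAt G (fderiv ℝ G z) ((fun s : ℝ => (s, z.2)) z.1) :=
      (hG.differentiable (by norm_num) _).hasFDerivAt
    have h3 := (h2.comp z.1 h1).hasDerivAt.deriv
    have h4 : (fun s => G (s, z.2)) = G ∘ fun s => (s, z.2) := rfl
    rw [h4, h3]
    simp
  rw [h1]
  exact (hG.fderiv_right (m := ∞) (by norm_cast)).clm_apply contDiff_const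

/-- **Existence of classical solutions.** A smooth periodic divergence-free field `u` which
vanishes at time `0` is, together with the zero pressure, a classical solution for the force
`f = ∂ₜu + (u·∇)u - ν Δu`. -/
theorem isClassical_of_smooth {ν : ℝ} {f u : ℝ → (Fin 3 → ℝ) → Fin 3 → ℝ}
    (hu : ContDiff ℝ ∞ fun z : ℝ × (Fin 3 → ℝ) => u z.1 z.2)
    (hper : ∀ t, 0 ≤ t → ∀ (x : Fin 3 → ℝ) (k : Fin 3 → ℤ), u t (fun i => x i + k i) = u t x)
    (h0 : ∀ x, u 0 x = 0)
    (hdiv : ∀ t, 0 ≤ t → ∀ x, ∑ j, pd j (fun y => u t y j) x = 0)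
    (hf : ∀ t, 0 ≤ t → ∀ x i, f t x i = deriv (fun s => u s x i) t +
      ∑ j, u t x j * pd j (fun y => u t y i) x - ν * ∑ j, pd j (pd j fun y => u t y i) x)
    {T : ℝ} (hT : 0 < T) : IsClassical ν f T u (fun _ _ => 0) := by
  have hui : ∀ i, ContDiff ℝ ∞ fun z : ℝ × (Fin 3 → ℝ) => u z.1 z.2 i := fun i =>
    contDiff_pi.1 hu i
  have hut : ∀ i x t, DifferentiableAt ℝ (fun s => u s x i) t := by
    intro i x t
    have : ContDiff ℝ ∞ fun s : ℝ => u s x i :=
      (hui i).comp (f := fun s : ℝ => (s, x)) (by fun_prop)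
    exact this.differentiable (by norm_num) t
  have hd : ∀ t ∈ Icc 0 T, ∀ x i, derivWithin (fun s => u s x i) (Icc 0 T) t =
      deriv (fun s => u s x i) t := fun t ht x i =>
    (hut i x t).derivWithin (uniqueDiffOn_Icc hT t ht)
  have hslice : ∀ t, ContDiff ℝ ∞ (u t) := fun t =>
    hu.comp (f := fun x : Fin 3 → ℝ => (t, x)) (by fun_prop)
  refine
    { periodic_u := fun t ht => hper t ht.1
      periodic_p := fun t ht x k => rfl
      contDiff_u := fun t ht => (hslice t).of_le (by norm_cast)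
      contDiff_p := fun t ht => contDiff_const
      differentiable_t := fun t ht x i => (hut i x t).differentiableWithinAt
      continuous_u := fun i => (hui i).continuous.continuousOn
      continuous_ut := fun i => ?_
      continuous_ux := fun i j => (contDiff_pd_slice (hui i) j).continuous.continuousOn
      continuous_uxx := fun i j k =>
        (contDiff_pd_slice (contDiff_pd_slice (hui i) j) k).continuous.continuousOn
      continuous_p := continuousOn_const
      continuous_px := fun j => ?_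
      momentum := fun t ht x i => ?_
      div_free := fun t ht => hdiv t ht.1
      initial := h0
      mean_p := fun t ht => by simp }
  · refine ContinuousOn.congr (contDiff_deriv_slice (hui i)).continuous.continuousOn ?_
    intro z hz
    exact hd z.1 hz.1 z.2 i
  · have : (fun z : ℝ × (Fin 3 → ℝ) => pd j (fun _ => (0 : ℝ)) z.2) = fun _ => 0 := by
      funext z
      simp [pd]
    rw [this]
    exact continuousOn_const
  · rw [hd t ht x i, hf t ht.1 x i]
    have : pd i (fun _ => (0 : ℝ)) x = 0 := by simp [pd]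
    rw [this]
    ring

/-- **Uniqueness of trajectories** of a `C¹` field. -/
theorem IsTrajectory.unique {u : ℝ → (Fin 3 → ℝ) → Fin 3 → ℝ}
    (hu : ContDiff ℝ 1 fun z : ℝ × (Fin 3 → ℝ) => u z.1 z.2)
    {a : Fin 3 → ℝ} {X Y : ℝ → Fin 3 → ℝ} (hX : IsTrajectory u a X) (hY : IsTrajectory u a Y) :
    ∀ t, 0 ≤ t → X t = Y t :=
  PDE.IsTrajectory.unique hu hX hY

end Vale.Agent.P113
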