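import Mathlib

/-!
# P113: periodic functions on `ℝ³`, partial derivatives and integration over the unit cube
-/

namespace Vale.Agent.P113.PDE

open Set MeasureTheory

/-- Points of `ℝ³`; a function on the torus `𝕋³ = (ℝ/ℤ)³` is a `ℤ³`-periodic function on `ℝ³`. -/
abbrev E3 := Fin 3 → ℝ

/-- `g` is `ℤ³`-periodic, i.e. it is a function on the torus. -/
def IsPeriodic {β : Type*} (g : E3 → β) : Prop :=
  ∀ (x : E3) (m : Fin 3 → ℤ), g (fun i => x i + m i) = g x

/-- The partial derivative of `g` in the direction of the `j`-th coordinate exists at `x`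
and equals `g'`. -/
def HasPartial (g : E3 → ℝ) (j : Fin 3) (g' : ℝ) (x : E3) : Prop :=
  HasDerivAt (fun s : ℝ => g (Function.update x j s)) g' (x j)

theorem IsPeriodic.update_one {β : Type*} {g : E3 → β} (hg : IsPeriodic g) (x : E3) (j : Fin 3) :
    g (Function.update x j 1) = g (Function.update x j 0) := by
  have := hg (Function.update x j 0) (fun i => if i = j then 1 else 0)
  rw [← this]
  congr 1
  funext i
  by_cases h : i = j
  · subst h; simp
  · simp [h]

/-- The unit cube has a product measure. -/
theorem cube_measure :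
    (volume.restrict (Icc (0 : E3) 1)) =
      Measure.pi (fun _ : Fin 3 => (volume : Measure ℝ).restrict (Icc 0 1)) := by
  rw [← Set.pi_univ_Icc, volume_pi]
  exact Measure.restrict_pi_pi _ _

theorem integral_partial_eq_zero {F F' : E3 → ℝ} {j : Fin 3} (hF : IsPeriodic F)
    (hF' : Continuous F') (hd : ∀ x, HasPartial F j (F' x) x) :
    ∫ x in Icc (0 : E3) 1, F' x = 0 := by
  have hint : Integrable F' (volume.restrict (Icc (0 : E3) 1)) :=
    hF'.continuousOn.integrableOn_compact isCompact_Icc
  rw [cube_measure] at hint ⊢
  set μ : Fin 3 → Measure ℝ := fun _ => (volume : Measure ℝ).restrict (Icc 0 1) with hμ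
  have hmp := (measurePreserving_piFinSuccAbove μ j).symm
  have h1 : ∫ x, F' x ∂(Measure.pi μ) =
      ∫ z, F' ((MeasurableEquiv.piFinSuccAbove (fun _ : Fin 3 => ℝ) j).symm z)
        ∂((μ j).prod (Measure.pi fun i => μ (j.succAbove i))) :=
    (hmp.integral_comp' (g := F')).symm
  rw [h1]
  have hint2 : Integrable
      (fun z => F' ((MeasurableEquiv.piFinSuccAbove (fun _ : Fin 3 => ℝ) j).symm z))
      ((μ j).prod (Measure.pi fun i => μ (j.succAbove i))) :=
    hmp.integrable_comp_of_integrable hint
  rw [integral_prod_symm _ hint2]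
  refine integral_eq_zero_of_ae (Filter.Eventually.of_forall fun y => ?_)
  simp only [Pi.zero_apply]
  have key : ∀ s : ℝ, (MeasurableEquiv.piFinSuccAbove (fun _ : Fin 3 => ℝ) j).symm (s, y) =
      Function.update (Fin.insertNth (α := fun _ => ℝ) j (0 : ℝ) y) j s := by
    intro s
    rw [Fin.update_insertNth]
    rfl
  simp only [key]
  set z : E3 := Fin.insertNth (α := fun _ => ℝ) j (0 : ℝ) y with hz
  have h2 : ∫ s, F' (Function.update z j s) ∂(μ j) = ∫ s in (0:ℝ)..1, F' (Function.update z j s) := by
    rw [intervalIntegral.integral_of_le zero_le_one, hμ]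
    exact integral_Icc_eq_integral_Ioc
  rw [h2, intervalIntegral.integral_eq_sub_of_hasDerivAt
    (f := fun s => F (Function.update z j s)) (f' := fun s => F' (Function.update z j s))]
  · simp only [hF.update_one, sub_self]
  · intro s _
    have := hd (Function.update z j s)
    simpa [HasPartial] using this
  · apply Continuous.intervalIntegrable
    exact hF'.comp (continuous_const.update j continuous_id)

end Vale.Agent.P113.PDE
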