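import Vale.Agent.P113.PDE.Basic

/-!
# P113: classical solutions of the forced Navier-Stokes system from rest
-/

namespace Vale.Agent.P113.PDE

open Set MeasureTheory

/-- `(u, p)` is a classical solution on `[0, T] × 𝕋³` of
`∂ₜu + (u·∇)u = -∇p + ν Δu + f`, `div u = 0`, `u(0, ·) = 0`:
`u` has a time derivative `ut` and spatial partial derivatives `Du j = ∂_j u` and
`DDu j k = ∂_j ∂_k u`, `p` has spatial partial derivatives `Dp j = ∂_j p`, all of these functions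
are continuous on `[0, T] × 𝕋³`, the equations hold at every point, and `p` has spatial mean
zero. -/
structure IsClassicalSolution (ν : ℝ) (f : ℝ → E3 → E3) (T : ℝ)
    (u : ℝ → E3 → E3) (p : ℝ → E3 → ℝ) : Prop where
  periodic_u : ∀ t ∈ Icc 0 T, IsPeriodic (u t)
  periodic_p : ∀ t ∈ Icc 0 T, IsPeriodic (p t)
  equations : ∃ (ut : ℝ → E3 → E3) (Du : Fin 3 → ℝ → E3 → E3)
      (DDu : Fin 3 → Fin 3 → ℝ → E3 → E3) (Dp : Fin 3 → ℝ → E3 → ℝ),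
    (∀ t ∈ Icc 0 T, ∀ x i, HasDerivWithinAt (fun s => u s x i) (ut t x i) (Icc 0 T) t) ∧
    (∀ t ∈ Icc 0 T, ∀ x i j, HasPartial (fun y => u t y i) j (Du j t x i) x) ∧
    (∀ t ∈ Icc 0 T, ∀ x i j k, HasPartial (fun y => Du k t y i) j (DDu j k t x i) x) ∧
    (∀ t ∈ Icc 0 T, ∀ x j, HasPartial (p t) j (Dp j t x) x) ∧
    ContinuousOn (fun z : ℝ × E3 => u z.1 z.2) (Icc 0 T ×ˢ univ) ∧
    ContinuousOn (fun z : ℝ × E3 => ut z.1 z.2) (Icc 0 T ×ˢ univ) ∧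
    (∀ j, ContinuousOn (fun z : ℝ × E3 => Du j z.1 z.2) (Icc 0 T ×ˢ univ)) ∧
    (∀ j k, ContinuousOn (fun z : ℝ × E3 => DDu j k z.1 z.2) (Icc 0 T ×ˢ univ)) ∧
    ContinuousOn (fun z : ℝ × E3 => p z.1 z.2) (Icc 0 T ×ˢ univ) ∧
    (∀ j, ContinuousOn (fun z : ℝ × E3 => Dp j z.1 z.2) (Icc 0 T ×ˢ univ)) ∧
    (∀ t ∈ Icc 0 T, ∀ x i, ut t x i + ∑ j, u t x j * Du j t x i =
      - Dp i t x + ν * ∑ j, DDu j j t x i + f t x i) ∧
    (∀ t ∈ Icc 0 T, ∀ x, ∑ j, Du j t x j = 0)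
  initial : ∀ x, u 0 x = 0
  mean_zero : ∀ t ∈ Icc 0 T, ∫ x in Icc (0 : E3) 1, p t x = 0

end Vale.Agent.P113.PDE
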