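import Vale.Agent.P113.PDE.Classical

/-!
# P113: the energy inequality at a fixed time
-/

namespace Vale.Agent.P113.PDE

open Set MeasureTheory

theorem HasPartial.add {g h : E3 → ℝ} {j : Fin 3} {g' h' : ℝ} {x : E3}
    (hg : HasPartial g j g' x) (hh : HasPartial h j h' x) :
    HasPartial (fun y => g y + h y) j (g' + h') x :=
  HasDerivAt.add hg hh

theorem HasPartial.sub {g h : E3 → ℝ} {j : Fin 3} {g' h' : ℝ} {x : E3}
    (hg : HasPartial g j g' x) (hh : HasPartial h j h' x) :
    HasPartial (fun y => g y - h y) j (g' - h') x :=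
  HasDerivAt.sub hg hh

theorem HasPartial.mul {g h : E3 → ℝ} {j : Fin 3} {g' h' : ℝ} {x : E3}
    (hg : HasPartial g j g' x) (hh : HasPartial h j h' x) :
    HasPartial (fun y => g y * h y) j (g' * h x + g x * h') x := by
  have := HasDerivAt.fun_mul hg hh
  simpa [HasPartial, Function.update_eq_self] using this

theorem HasPartial.const_mul {g : E3 → ℝ} {j : Fin 3} {g' : ℝ} {x : E3} (c : ℝ)
    (hg : HasPartial g j g' x) : HasPartial (fun y => c * g y) j (c * g') x :=
  HasDerivAt.const_mul c hg

theorem HasPartial.neg {g : E3 → ℝ} {j : Fin 3} {g' : ℝ} {x : E3}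
    (hg : HasPartial g j g' x) : HasPartial (fun y => - g y) j (- g') x :=
  HasDerivAt.neg hg

theorem HasPartial.sum {ι : Type*} {s : Finset ι} {g : ι → E3 → ℝ} {j : Fin 3} {g' : ι → ℝ}
    {x : E3} (hg : ∀ i ∈ s, HasPartial (g i) j (g' i) x) :
    HasPartial (fun y => ∑ i ∈ s, g i y) j (∑ i ∈ s, g' i) x :=
  HasDerivAt.fun_sum hg

theorem HasPartial.periodic {g g' : E3 → ℝ} {j : Fin 3} (hg : IsPeriodic g)
    (h : ∀ x, HasPartial g j (g' x) x) : IsPeriodic g' := by
  intro x m
  have h1 := h (fun i => x i + m i)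
  have h2 := h x
  unfold HasPartial at h1 h2
  have h3 : HasDerivAt (fun s : ℝ => g (Function.update x j s)) (g' fun i => x i + m i) (x j) := by
    have h4 : (fun s : ℝ => g (Function.update x j s)) =
        fun s : ℝ => (fun r : ℝ => g (Function.update (fun i => x i + (m i : ℝ)) j r))
          (s + m j) := by
      funext s
      simp only
      rw [← hg (Function.update x j s) m]
      congr 1
      funext i
      by_cases hi : i = j
      · subst hi; simp
      · simp [hi]
    rw [h4]
    exact HasDerivAt.comp_add_const (x j) (m j : ℝ) h1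
  exact h3.unique h2

/-- The energy inequality at a fixed time. -/
theorem energy_slice {ν C : ℝ} (hν : 0 ≤ ν) {f u v ut vt : E3 → E3} {Du Dv : Fin 3 → E3 → E3}
    {DDu DDv : Fin 3 → Fin 3 → E3 → E3} {p q : E3 → ℝ} {Dp Dq : Fin 3 → E3 → ℝ}
    (pu : IsPeriodic u) (pv : IsPeriodic v) (pp : IsPeriodic p) (pq : IsPeriodic q)
    (hDu : ∀ x i j, HasPartial (fun y => u y i) j (Du j x i) x)
    (hDv : ∀ x i j, HasPartial (fun y => v y i) j (Dv j x i) x)
    (hDDu : ∀ x i j k, HasPartial (fun y => Du k y i) j (DDu j k x i) x)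
    (hDDv : ∀ x i j k, HasPartial (fun y => Dv k y i) j (DDv j k x i) x)
    (hDp : ∀ x j, HasPartial p j (Dp j x) x) (hDq : ∀ x j, HasPartial q j (Dq j x) x)
    (cu : Continuous u) (cv : Continuous v) (cut : Continuous ut) (cvt : Continuous vt)
    (cDu : ∀ j, Continuous (Du j)) (cDv : ∀ j, Continuous (Dv j))
    (cDDu : ∀ j k, Continuous (DDu j k)) (cDDv : ∀ j k, Continuous (DDv j k))
    (cp : Continuous p) (cq : Continuous q) (cDp : ∀ j, Continuous (Dp j))
    (cDq : ∀ j, Continuous (Dq j))
    (eu : ∀ x i, ut x i + ∑ j, u x j * Du j x i = - Dp i x + ν * ∑ j, DDu j j x i + f x i)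
    (ev : ∀ x i, vt x i + ∑ j, v x j * Dv j x i = - Dq i x + ν * ∑ j, DDv j j x i + f x i)
    (du : ∀ x, ∑ j, Du j x j = 0) (dv : ∀ x, ∑ j, Dv j x j = 0)
    (hC : ∀ x ∈ Icc (0 : E3) 1, ∀ i j, |Du j x i| ≤ C) :
    ∫ x in Icc (0 : E3) 1, ∑ i, 2 * (v x i - u x i) * (vt x i - ut x i) ≤
      6 * C * ∫ x in Icc (0 : E3) 1, ∑ i, (v x i - u x i) ^ 2 := by
  -- continuity of components
  have cu' : ∀ i, Continuous fun x => u x i := fun i => (continuous_apply i).comp cu
  have cv' : ∀ i, Continuous fun x => v x i := fun i => (continuous_apply i).comp cv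
  have cut' : ∀ i, Continuous fun x => ut x i := fun i => (continuous_apply i).comp cut
  have cvt' : ∀ i, Continuous fun x => vt x i := fun i => (continuous_apply i).comp cvt
  have cDu' : ∀ j i, Continuous fun x => Du j x i := fun j i => (continuous_apply i).comp (cDu j)
  have cDv' : ∀ j i, Continuous fun x => Dv j x i := fun j i => (continuous_apply i).comp (cDv j)
  have cDDu' : ∀ j k i, Continuous fun x => DDu j k x i :=
    fun j k i => (continuous_apply i).comp (cDDu j k)
  have cDDv' : ∀ j k i, Continuous fun x => DDv j k x i :=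
    fun j k i => (continuous_apply i).comp (cDDv j k)
  -- periodicity of components and derivatives
  have pu' : ∀ i, IsPeriodic fun x => u x i := fun i x m => congrFun (pu x m) i
  have pv' : ∀ i, IsPeriodic fun x => v x i := fun i x m => congrFun (pv x m) i
  have pDu : ∀ j i, IsPeriodic fun x => Du j x i :=
    fun j i => HasPartial.periodic (pu' i) fun x => hDu x i j
  have pDv : ∀ j i, IsPeriodic fun x => Dv j x i :=
    fun j i => HasPartial.periodic (pv' i) fun x => hDv x i j
  -- the fluxes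
  let F : Fin 3 → E3 → ℝ := fun j x =>
    -(v x j * ∑ i, (v x i - u x i) * (v x i - u x i)) - 2 * ((v x j - u x j) * (q x - p x)) +
      2 * ν * ∑ i, (v x i - u x i) * (Dv j x i - Du j x i)
  let F' : Fin 3 → E3 → ℝ := fun j x =>
    -(Dv j x j * ∑ i, (v x i - u x i) * (v x i - u x i) +
      v x j * ∑ i, ((Dv j x i - Du j x i) * (v x i - u x i) +
        (v x i - u x i) * (Dv j x i - Du j x i))) -
      2 * ((Dv j x j - Du j x j) * (q x - p x) + (v x j - u x j) * (Dq j x - Dp j x)) +
      2 * ν * ∑ i, ((Dv j x i - Du j x i) * (Dv j x i - Du j x i) +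
        (v x i - u x i) * (DDv j j x i - DDu j j x i))
  have hFF' : ∀ j x, HasPartial (F j) j (F' j x) x := by
    intro j x
    refine HasPartial.add (HasPartial.sub (HasPartial.neg (HasPartial.mul (hDv x j j)
      (HasPartial.sum fun i _ => HasPartial.mul ((hDv x i j).sub (hDu x i j))
        ((hDv x i j).sub (hDu x i j))))) (HasPartial.const_mul 2 (HasPartial.mul
        ((hDv x j j).sub (hDu x j j)) ((hDq x j).sub (hDp x j)))))
      (HasPartial.const_mul (2 * ν) (HasPartial.sum fun i _ => HasPartial.mul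
        ((hDv x i j).sub (hDu x i j)) ((hDDv x i j j).sub (hDDu x i j j))))
  have pF : ∀ j, IsPeriodic (F j) := by
    intro j x m
    have h1 := fun i => pu' i x m
    have h2 := fun i => pv' i x m
    have h3 := fun j i => pDu j i x m
    have h4 := fun j i => pDv j i x m
    simp only [F]
    simp only at h1 h2 h3 h4
    simp only [h1, h2, h3, h4, pp x m, pq x m]
  have cF' : ∀ j, Continuous (F' j) := by
    intro j
    have := cDp j
    have := cDq j
    have := cu' ; have := cv' ; have := cDu' ; have := cDv' ; have := cDDu' ; have := cDDv'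
    simp only [F']
    fun_prop
  have hF0 : ∀ j, ∫ x in Icc (0 : E3) 1, F' j x = 0 := fun j =>
    integral_partial_eq_zero (pF j) (cF' j) (hFF' j)
  -- the pointwise identity
  have hid : ∀ x, ∑ i, 2 * (v x i - u x i) * (vt x i - ut x i) =
      ∑ j, F' j x - 2 * (∑ i, ∑ j, (v x i - u x i) * (v x j - u x j) * Du j x i) -
        2 * ν * ∑ i, ∑ j, (Dv j x i - Du j x i) ^ 2 := by
    intro x
    have h1 := fun i => eu x i
    have h2 := fun i => ev x i
    have h3 := du x
    have h4 := dv x
    simp only [F', Fin.sum_univ_three] at h1 h2 h3 h4 ⊢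
    have e1 : ∀ i, ut x i = - Dp i x + ν * (DDu 0 0 x i + DDu 1 1 x i + DDu 2 2 x i) + f x i -
      (u x 0 * Du 0 x i + u x 1 * Du 1 x i + u x 2 * Du 2 x i) := fun i => by linarith [h1 i]
    have e2 : ∀ i, vt x i = - Dq i x + ν * (DDv 0 0 x i + DDv 1 1 x i + DDv 2 2 x i) + f x i -
      (v x 0 * Dv 0 x i + v x 1 * Dv 1 x i + v x 2 * Dv 2 x i) := fun i => by linarith [h2 i]
    rw [e1 0, e1 1, e1 2, e2 0, e2 1, e2 2]
    have e3 : Du 2 x 2 = - Du 0 x 0 - Du 1 x 1 := by linarith
    have e4 : Dv 2 x 2 = - Dv 0 x 0 - Dv 1 x 1 := by linarith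
    rw [e3, e4]
    ring
  have hle : ∀ x ∈ Icc (0 : E3) 1, ∑ i, 2 * (v x i - u x i) * (vt x i - ut x i) ≤
      ∑ j, F' j x + 6 * C * ∑ i, (v x i - u x i) ^ 2 := by
    intro x hx
    rw [hid x]
    have hC' := hC x hx
    have hsq : 0 ≤ 2 * ν * ∑ i, ∑ j, (Dv j x i - Du j x i) ^ 2 := by positivity
    have hC0 : 0 ≤ C := (abs_nonneg _).trans (hC' 0 0)
    have hb : ∀ i j, -((v x i - u x i) * (v x j - u x j) * Du j x i) ≤
        C * (((v x i - u x i) ^ 2 + (v x j - u x j) ^ 2) / 2) := by
      intro i j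
      calc -((v x i - u x i) * (v x j - u x j) * Du j x i)
          ≤ |(v x i - u x i) * (v x j - u x j) * Du j x i| := neg_le_abs _
        _ = |(v x i - u x i) * (v x j - u x j)| * |Du j x i| := abs_mul _ _
        _ ≤ |(v x i - u x i) * (v x j - u x j)| * C := by gcongr; exact hC' i j
        _ ≤ (((v x i - u x i) ^ 2 + (v x j - u x j) ^ 2) / 2) * C := by
            gcongr
            rw [abs_mul]
            nlinarith [sq_nonneg (|v x i - u x i| - |v x j - u x j|), sq_abs (v x i - u x i),
              sq_abs (v x j - u x j)]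
        _ = _ := by ring
    have hsum : -(∑ i, ∑ j, (v x i - u x i) * (v x j - u x j) * Du j x i) ≤
        3 * C * ∑ i, (v x i - u x i) ^ 2 := by
      simp only [Fin.sum_univ_three]
      have := hb 0 0; have := hb 0 1; have := hb 0 2
      have := hb 1 0; have := hb 1 1; have := hb 1 2
      have := hb 2 0; have := hb 2 1; have := hb 2 2
      nlinarith
    linarith
  have iF' : ∀ j, IntegrableOn (F' j) (Icc (0 : E3) 1) := fun j =>
    (cF' j).continuousOn.integrableOn_compact isCompact_Icc
  have cS : Continuous fun x => ∑ i, (v x i - u x i) ^ 2 := by fun_prop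
  have iS : IntegrableOn (fun x => ∑ i, (v x i - u x i) ^ 2) (Icc (0 : E3) 1) :=
    cS.continuousOn.integrableOn_compact isCompact_Icc
  have cL : Continuous fun x => ∑ i, 2 * (v x i - u x i) * (vt x i - ut x i) := by fun_prop
  have iL : IntegrableOn (fun x => ∑ i, 2 * (v x i - u x i) * (vt x i - ut x i))
      (Icc (0 : E3) 1) := cL.continuousOn.integrableOn_compact isCompact_Icc
  calc ∫ x in Icc (0 : E3) 1, ∑ i, 2 * (v x i - u x i) * (vt x i - ut x i)
      ≤ ∫ x in Icc (0 : E3) 1, (∑ j, F' j x + 6 * C * ∑ i, (v x i - u x i) ^ 2) := by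
        refine setIntegral_mono_on iL ?_ measurableSet_Icc hle
        exact (integrable_finsetSum _ fun j _ => iF' j).add (iS.const_mul _)
    _ = (∑ j, ∫ x in Icc (0 : E3) 1, F' j x) +
        6 * C * ∫ x in Icc (0 : E3) 1, ∑ i, (v x i - u x i) ^ 2 := by
        rw [integral_add (integrable_finsetSum _ fun j _ => iF' j) (iS.const_mul _),
          integral_finsetSum _ fun j _ => iF' j, integral_const_mul]
    _ = _ := by simp only [hF0, Finset.sum_const_zero, zero_add]

end Vale.Agent.P113.PDE
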