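import Vale.Agent.P113.PDE.Slice

/-!
# P113: uniqueness of classical solutions on `[0, T] × 𝕋³`
-/

namespace Vale.Agent.P113.PDE

open Set MeasureTheory

theorem IsPeriodic.eq_of_cube {β : Type*} {g h : E3 → β} (hg : IsPeriodic g) (hh : IsPeriodic h)
    (H : ∀ x ∈ Icc (0 : E3) 1, g x = h x) (x : E3) : g x = h x := by
  have h1 := hg (fun i => Int.fract (x i)) (fun i => ⌊x i⌋)
  have h2 := hh (fun i => Int.fract (x i)) (fun i => ⌊x i⌋)
  have h3 : (fun i => Int.fract (x i) + (⌊x i⌋ : ℝ)) = x := by
    funext i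
    exact Int.fract_add_floor (x i)
  rw [h3] at h1 h2
  rw [h1, h2]
  apply H
  constructor
  · intro i; exact Int.fract_nonneg _
  · intro i; exact (Int.fract_lt_one _).le

theorem cube_subset_closure_interior : Icc (0 : E3) 1 ⊆ closure (interior (Icc (0 : E3) 1)) := by
  rw [← Set.pi_univ_Icc, interior_pi_set Set.finite_univ, closure_pi_set]
  intro x hx i hi
  have := hx i hi
  simp only [Pi.zero_apply, Pi.one_apply] at this ⊢
  rwa [interior_Icc, closure_Ioo (zero_ne_one)]

theorem volume_cube : (volume : Measure E3).real (Icc (0 : E3) 1) = 1 := by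
  rw [Measure.real, Real.volume_Icc_pi]
  simp

/-- The components of a function with values in `E3`. -/
theorem continuousOn_comp_apply {S : Set (ℝ × E3)} {g : ℝ → E3 → E3}
    (h : ContinuousOn (fun z : ℝ × E3 => g z.1 z.2) S) (i : Fin 3) :
    ContinuousOn (fun z : ℝ × E3 => g z.1 z.2 i) S :=
  (continuous_apply i).comp_continuousOn h

theorem slice_continuous {β : Type*} [TopologicalSpace β] {T : ℝ} {g : ℝ → E3 → β}
    (h : ContinuousOn (fun z : ℝ × E3 => g z.1 z.2) (Icc 0 T ×ˢ univ)) {t : ℝ}
    (ht : t ∈ Icc 0 T) : Continuous (g t) := by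
  have : ContinuousOn (fun x : E3 => g t x) univ :=
    h.comp (f := fun x : E3 => (t, x)) (by fun_prop) (fun x _ => ⟨ht, mem_univ _⟩)
  exact continuousOn_univ.1 this

theorem exists_bound {T : ℝ} {g : ℝ × E3 → ℝ}
    (h : ContinuousOn g (Icc 0 T ×ˢ univ)) :
    ∃ C, ∀ t ∈ Icc 0 T, ∀ x ∈ Icc (0 : E3) 1, |g (t, x)| ≤ C := by
  have hK : IsCompact (Icc 0 T ×ˢ Icc (0 : E3) 1) := isCompact_Icc.prod isCompact_Icc
  obtain ⟨C, hC⟩ := hK.exists_bound_of_continuousOn
    (h.mono (prod_mono_right (subset_univ _)))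
  exact ⟨C, fun t ht x hx => by simpa using hC (t, x) ⟨ht, hx⟩⟩

theorem eq_const_of_partials {g : E3 → ℝ} (h : ∀ x j, HasPartial g j 0 x) (x : E3) :
    g x = g 0 := by
  have key : ∀ (x : E3) (j : Fin 3) (s : ℝ), g (Function.update x j s) = g x := by
    intro x j s
    have h1 : ∀ r : ℝ, HasDerivAt (fun s : ℝ => g (Function.update x j s)) 0 r := by
      intro r
      have := h (Function.update x j r) j
      simpa [HasPartial] using this
    have h2 := is_const_of_deriv_eq_zero (fun r => (h1 r).differentiableAt)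
      (fun r => (h1 r).deriv) s (x j)
    simpa using h2
  have e : x = Function.update (Function.update (Function.update (0 : E3) 0 (x 0)) 1 (x 1)) 2
      (x 2) := by
    funext i
    fin_cases i <;> simp [Function.update]
  rw [e, key, key, key]

theorem velocity_unique {ν T : ℝ} (hν : 0 ≤ ν) {f u v : ℝ → E3 → E3} {p q : ℝ → E3 → ℝ}
    (hu : IsClassicalSolution ν f T u p) (hv : IsClassicalSolution ν f T v q) :
    ∀ t ∈ Icc 0 T, ∀ x, u t x = v t x := by
  obtain ⟨ut, Du, DDu, Dp, hut, hDu, hDDu, hDp, cu, cut, cDu, cDDu, cp, cDp, eu, du⟩ :=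
    hu.equations
  obtain ⟨vt, Dv, DDv, Dq, hvt, hDv, hDDv, hDq, cv, cvt, cDv, cDDv, cq, cDq, ev, dv⟩ :=
    hv.equations
  -- a bound for the derivatives of `u`
  obtain ⟨C, hC⟩ : ∃ C, ∀ t ∈ Icc 0 T, ∀ x ∈ Icc (0 : E3) 1, ∀ i j, |Du j t x i| ≤ C := by
    have h1 : ∀ i j : Fin 3, ∃ C, ∀ t ∈ Icc 0 T, ∀ x ∈ Icc (0 : E3) 1, |Du j t x i| ≤ C :=
      fun i j => exists_bound (g := fun z => Du j z.1 z.2 i) (continuousOn_comp_apply (cDu j) i)
    choose B hB using h1
    refine ⟨∑ i, ∑ j, |B i j|, fun t ht x hx i j => ?_⟩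
    calc |Du j t x i| ≤ B i j := hB i j t ht x hx
      _ ≤ |B i j| := le_abs_self _
      _ ≤ ∑ j, |B i j| := Finset.single_le_sum (f := fun j => |B i j|)
          (fun _ _ => abs_nonneg _) (Finset.mem_univ j)
      _ ≤ ∑ i, ∑ j, |B i j| := Finset.single_le_sum (f := fun i => ∑ j, |B i j|)
          (fun _ _ => Finset.sum_nonneg fun _ _ => abs_nonneg _) (Finset.mem_univ i)
  -- the energy density and its time derivative
  set G : ℝ × E3 → ℝ := fun z => ∑ i, (v z.1 z.2 i - u z.1 z.2 i) ^ 2 with hG
  set G' : ℝ × E3 → ℝ := fun z => ∑ i, 2 * (v z.1 z.2 i - u z.1 z.2 i) *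
    (vt z.1 z.2 i - ut z.1 z.2 i) with hG'
  have cG : ContinuousOn G (Icc 0 T ×ˢ univ) := by
    refine continuousOn_finsetSum _ fun i _ => ?_
    exact ((continuousOn_comp_apply cv i).sub (continuousOn_comp_apply cu i)).pow 2
  have cG' : ContinuousOn G' (Icc 0 T ×ˢ univ) := by
    refine continuousOn_finsetSum _ fun i _ => ?_
    exact (continuousOn_const.mul ((continuousOn_comp_apply cv i).sub
      (continuousOn_comp_apply cu i))).mul
      ((continuousOn_comp_apply cvt i).sub (continuousOn_comp_apply cut i))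
  obtain ⟨B, hB⟩ := exists_bound cG
  obtain ⟨B', hB'⟩ := exists_bound cG'
  have : IsFiniteMeasure ((volume : Measure E3).restrict (Icc (0 : E3) 1)) :=
    ⟨by simpa using isCompact_Icc.measure_lt_top⟩
  set E : ℝ → ℝ := fun t => ∫ x in Icc (0 : E3) 1, G (t, x) with hE
  have sG : ∀ t ∈ Icc 0 T, Continuous fun x => G (t, x) := fun t ht =>
    slice_continuous (g := fun t x => G (t, x)) cG ht
  have sG' : ∀ t ∈ Icc 0 T, Continuous fun x => G' (t, x) := fun t ht =>
    slice_continuous (g := fun t x => G' (t, x)) cG' ht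
  have cE : ContinuousOn E (Icc 0 T) := by
    refine continuousOn_of_dominated (bound := fun _ => B) ?_ ?_ ?_ ?_
    · intro t ht
      exact (sG t ht).aestronglyMeasurable
    · intro t ht
      refine (ae_restrict_iff' measurableSet_Icc).2 (Filter.Eventually.of_forall fun x hx => ?_)
      simpa using hB t ht x hx
    · exact integrable_const _
    · refine Filter.Eventually.of_forall fun x => ?_
      exact cG.comp (f := fun t : ℝ => (t, x)) (by fun_prop) (fun t ht => ⟨ht, mem_univ _⟩)
  have dE : ∀ t ∈ Ioo 0 T, HasDerivAt E (∫ x in Icc (0 : E3) 1, G' (t, x)) t := by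
    intro t ht
    have hnhds : Ioo 0 T ∈ nhds t := Ioo_mem_nhds ht.1 ht.2
    refine (hasDerivAt_integral_of_dominated_loc_of_deriv_le
      (F := fun t x => G (t, x)) (F' := fun t x => G' (t, x)) (bound := fun _ => B')
      (μ := volume.restrict (Icc (0 : E3) 1)) (s := Ioo 0 T) hnhds ?_ ?_ ?_ ?_ ?_ ?_).2
    · filter_upwards [hnhds] with s hs
      exact (sG s (Ioo_subset_Icc_self hs)).aestronglyMeasurable
    · exact (sG t (Ioo_subset_Icc_self ht)).continuousOn.integrableOn_compact isCompact_Icc
    · exact (sG' t (Ioo_subset_Icc_self ht)).aestronglyMeasurable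
    · refine (ae_restrict_iff' measurableSet_Icc).2 (Filter.Eventually.of_forall
        fun x hx s hs => ?_)
      simpa using hB' s (Ioo_subset_Icc_self hs) x hx
    · exact integrable_const _
    · refine Filter.Eventually.of_forall fun x s hs => ?_
      have hs' : Icc 0 T ∈ nhds s := Icc_mem_nhds hs.1 hs.2
      refine HasDerivAt.fun_sum fun i _ => ?_
      have h1 := (hvt s (Ioo_subset_Icc_self hs) x i).hasDerivAt hs'
      have h2 := (hut s (Ioo_subset_Icc_self hs) x i).hasDerivAt hs'
      have h3 := (h1.fun_sub h2).fun_pow 2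
      simpa [mul_assoc] using h3
  have iE : ∀ t ∈ Ioo 0 T, (∫ x in Icc (0 : E3) 1, G' (t, x)) ≤ 6 * C * E t := by
    intro t ht
    have ht' := Ioo_subset_Icc_self ht
    exact energy_slice hν (f := f t) (hu.periodic_u t ht') (hv.periodic_u t ht')
      (hu.periodic_p t ht') (hv.periodic_p t ht') (hDu t ht') (hDv t ht') (hDDu t ht')
      (hDDv t ht') (hDp t ht') (hDq t ht') (slice_continuous cu ht') (slice_continuous cv ht')
      (slice_continuous cut ht') (slice_continuous cvt ht')
      (fun j => slice_continuous (cDu j) ht') (fun j => slice_continuous (cDv j) ht')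
      (fun j k => slice_continuous (cDDu j k) ht') (fun j k => slice_continuous (cDDv j k) ht')
      (slice_continuous cp ht') (slice_continuous cq ht')
      (fun j => slice_continuous (cDp j) ht') (fun j => slice_continuous (cDq j) ht')
      (eu t ht') (ev t ht') (du t ht') (dv t ht') (hC t ht')
  -- Gronwall
  have dφ : ∀ t ∈ Ioo 0 T, HasDerivAt (fun t => Real.exp (-(6 * C * t)) * E t)
      (Real.exp (-(6 * C * t)) * (-(6 * C)) * E t +
        Real.exp (-(6 * C * t)) * ∫ x in Icc (0 : E3) 1, G' (t, x)) t := by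
    intro t ht
    refine HasDerivAt.fun_mul ?_ (dE t ht)
    have h1 : HasDerivAt (fun t : ℝ => -(6 * C * t)) (-(6 * C)) t := by
      simpa using ((hasDerivAt_id' t).const_mul (6 * C)).fun_neg
    exact h1.exp
  have anti : AntitoneOn (fun t => Real.exp (-(6 * C * t)) * E t) (Icc 0 T) := by
    refine antitoneOn_of_deriv_nonpos (convex_Icc 0 T) ?_ ?_ ?_
    · exact ContinuousOn.mul (by fun_prop) cE
    · rw [interior_Icc]
      exact fun t ht => (dφ t ht).differentiableAt.differentiableWithinAt
    · rw [interior_Icc]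
      intro t ht
      rw [(dφ t ht).deriv]
      have := iE t ht
      have := Real.exp_pos (-(6 * C * t))
      nlinarith
  intro t ht
  have hE0 : E 0 = 0 := by
    have h0 : ∀ x, G (0, x) = 0 := by
      intro x
      simp [hG, hu.initial x, hv.initial x]
    simp [hE, h0]
  have hEt : E t ≤ 0 := by
    have h1 := anti ⟨le_refl _, ht.1.trans ht.2⟩ ht ht.1
    simp only [hE0, mul_zero] at h1
    have := Real.exp_pos (-(6 * C * t))
    by_contra hcon
    push Not at hcon
    have := mul_pos this hcon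
    linarith
  have hEt0 : E t = 0 := le_antisymm hEt
    (integral_nonneg fun x => Finset.sum_nonneg fun i _ => sq_nonneg _)
  have hae : (fun x => G (t, x)) =ᵐ[volume.restrict (Icc (0 : E3) 1)] fun _ => (0 : ℝ) := by
    rw [hE] at hEt0
    exact (integral_eq_zero_iff_of_nonneg
      (fun x => Finset.sum_nonneg fun i _ => sq_nonneg _)
      ((sG t ht).continuousOn.integrableOn_compact isCompact_Icc)).1 hEt0
  have heq := Measure.eqOn_of_ae_eq hae (sG t ht).continuousOn continuousOn_const
    cube_subset_closure_interior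
  refine (hu.periodic_u t ht).eq_of_cube (hv.periodic_u t ht) fun x hx => ?_
  have h1 := heq hx
  simp only [hG] at h1
  funext i
  have h2 := (Finset.sum_eq_zero_iff_of_nonneg fun i _ => sq_nonneg (v t x i - u t x i)).1 h1 i
    (Finset.mem_univ i)
  have h3 := pow_eq_zero_iff (two_ne_zero) |>.1 h2
  linarith

/-- **Uniqueness of classical solutions.** -/
theorem classical_unique {ν T : ℝ} (hν : 0 ≤ ν) (hT : 0 < T) {f u v : ℝ → E3 → E3}
    {p q : ℝ → E3 → ℝ} (hu : IsClassicalSolution ν f T u p)
    (hv : IsClassicalSolution ν f T v q) :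
    ∀ t ∈ Icc 0 T, ∀ x, u t x = v t x ∧ p t x = q t x := by
  have huv := velocity_unique hν hu hv
  intro t ht x
  refine ⟨huv t ht x, ?_⟩
  obtain ⟨ut, Du, DDu, Dp, hut, hDu, hDDu, hDp, cu, cut, cDu, cDDu, cp, cDp, eu, du⟩ :=
    hu.equations
  obtain ⟨vt, Dv, DDv, Dq, hvt, hDv, hDDv, hDq, cv, cvt, cDv, cDDv, cq, cDq, ev, dv⟩ :=
    hv.equations
  have huv' : ∀ x, u t x = v t x := huv t ht
  have h1 : ∀ x i j, Du j t x i = Dv j t x i := by
    intro x i j
    have e : (fun y => u t y i) = fun y => v t y i := by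
      funext y; rw [huv' y]
    have a := hDu t ht x i j
    rw [e] at a
    exact HasDerivAt.unique a (hDv t ht x i j)
  have h2 : ∀ x i j k, DDu j k t x i = DDv j k t x i := by
    intro x i j k
    have e : (fun y => Du k t y i) = fun y => Dv k t y i := by
      funext y; rw [h1 y]
    have a := hDDu t ht x i j k
    rw [e] at a
    exact HasDerivAt.unique a (hDDv t ht x i j k)
  have h3 : ∀ x i, ut t x i = vt t x i := by
    intro x i
    have a := hut t ht x i
    have b := hvt t ht x i
    have c : HasDerivWithinAt (fun s => u s x i) (vt t x i) (Icc 0 T) t := by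
      refine b.congr (fun s hs => by rw [huv s hs x]) (by rw [huv t ht x])
    exact (uniqueDiffOn_Icc hT t ht).eq_deriv _ a c
  have h4 : ∀ x j, Dp j t x = Dq j t x := by
    intro x j
    have a := eu t ht x j
    have b := ev t ht x j
    simp only [h1, h2, h3, huv' x] at a
    linarith
  have h5 : ∀ x j, HasPartial (fun y => p t y - q t y) j 0 x := by
    intro x j
    have := (hDp t ht x j).sub (hDq t ht x j)
    rwa [h4, sub_self] at this
  have h6 := eq_const_of_partials h5
  have i1 : IntegrableOn (p t) (Icc (0 : E3) 1) :=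
    (slice_continuous cp ht).continuousOn.integrableOn_compact isCompact_Icc
  have i2 : IntegrableOn (q t) (Icc (0 : E3) 1) :=
    (slice_continuous cq ht).continuousOn.integrableOn_compact isCompact_Icc
  have h7 : ∫ x in Icc (0 : E3) 1, (p t x - q t x) = 0 := by
    rw [integral_sub i1 i2, hu.mean_zero t ht, hv.mean_zero t ht, sub_zero]
  have h8 : ∫ x in Icc (0 : E3) 1, (p t x - q t x) = p t 0 - q t 0 := by
    rw [integral_congr_ae (g := fun _ => p t 0 - q t 0) (Filter.Eventually.of_forall h6)]
    rw [setIntegral_const, volume_cube, one_smul]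
  have := h6 x
  linarith

end Vale.Agent.P113.PDE
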